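import Vale.Agent.P329.Class3.Subwords

/-! P329: in a group of class three a product is determined by subword counts. -/

namespace Vale.Agent.P329

open Finset
open scoped commutatorElement

variable {G : Type} [Group G]

/-- Commutators of weight four are trivial. -/
def ClassLE3 (G : Type) [Group G] : Prop := ∀ a b c d : G, ⁅⁅⁅a, b⁆, c⁆, d⁆ = 1

/-- The correction in `h * g = g * h * bra h g`. -/
def bra (h g : G) : G := h⁻¹ * g⁻¹ * h * g

lemma bra_eq (h g : G) : bra h g = ⁅h⁻¹, g⁻¹⁆ := by simp [bra, commutatorElement_def]

lemma mul_bra (h g : G) : h * g = g * h * bra h g := by simp [bra, mul_assoc]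

lemma comm_three (hG : ClassLE3 G) (h g x d : G) :
    d * bra (bra h g) x = bra (bra h g) x * d := by
  have e : (bra h g)⁻¹ = ⁅g⁻¹, h⁻¹⁆ := by
    rw [bra_eq, commutatorElement_inv]
  have := hG g⁻¹ h⁻¹ x⁻¹ d
  rw [← e, ← bra_eq] at this
  exact (commutatorElement_eq_one_iff_mul_comm.1 this).symm

lemma bra_mul (hG : ClassLE3 G) (h g x y : G) :
    bra (bra h g) (x * y) = bra (bra h g) y * bra (bra h g) x := by
  set q := bra h g
  have hs := comm_three hG h g x
  calc bra q (x * y) = q⁻¹ * y⁻¹ * q * (bra q x * y) := by simp [bra, mul_assoc]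
    _ = q⁻¹ * y⁻¹ * q * (y * bra q x) := by rw [hs y]
    _ = bra q y * bra q x := by simp [bra, mul_assoc]

lemma bra_one (q : G) : bra q 1 = 1 := by simp [bra]

lemma bra_inv (hG : ClassLE3 G) (h g x : G) :
    bra (bra h g) x⁻¹ = (bra (bra h g) x)⁻¹ := by
  refine eq_inv_of_mul_eq_one_left ?_
  rw [← bra_mul hG, mul_inv_cancel, bra_one]

/-- Commutators commute with each other. -/
lemma commute_bra (hG : ClassLE3 G) (a b c d : G) : Commute (bra a b) (bra c d) := by
  have h1 : bra (bra a b) (bra c d) = 1 := by
    set s := fun x => bra (bra a b) x with hs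
    have hc : ∀ x y : G, s x * s y = s y * s x := fun x y => (comm_three hG a b y (s x))
    show s (c⁻¹ * d⁻¹ * c * d) = 1
    simp only [hs, bra_mul hG, bra_inv hG]
    simp only [hs] at hc
    rw [← mul_assoc, ← mul_assoc, hc (d : G) c]
    simp [mul_assoc]
  have := mul_bra (bra a b) (bra c d)
  rw [h1, mul_one] at this
  exact this

/-- Moving a power of `g` to the left. -/
lemma mul_pow_left (hG : ClassLE3 G) (h g : G) : ∀ n : ℕ,
    h * g ^ n = g ^ n * h * (bra h g) ^ n * (bra (bra h g) g) ^ n.choose 2
  | 0 => by simp
  | n + 1 => by
    set q := bra h g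
    set r := bra q g
    have hr : ∀ d, Commute r d := fun d => (comm_three hG h g g d).symm
    have hq : ∀ k : ℕ, q ^ k * g = g * q ^ k * r ^ k := by
      intro k
      induction k with
      | zero => simp
      | succ k ih =>
        calc q ^ (k + 1) * g = q ^ k * (q * g) := by rw [pow_succ, mul_assoc]
          _ = q ^ k * g * q * r := by rw [mul_bra q g]; simp only [mul_assoc]; rfl
          _ = g * q ^ k * (r ^ k * q) * r := by rw [ih]; simp only [mul_assoc]
          _ = g * q ^ (k + 1) * r ^ (k + 1) := by
            rw [((hr q).pow_left k).eq]; simp only [pow_succ, mul_assoc]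
    calc h * g ^ (n + 1) = g ^ n * h * q ^ n * (r ^ n.choose 2 * g) := by
          rw [pow_succ, ← mul_assoc, mul_pow_left hG h g n]; simp only [mul_assoc]; rfl
      _ = g ^ n * h * (q ^ n * g) * r ^ n.choose 2 := by
          rw [((hr g).pow_left _).eq]; simp only [mul_assoc]
      _ = g ^ n * (h * g) * q ^ n * r ^ n * r ^ n.choose 2 := by
          rw [hq n]; simp only [mul_assoc]
      _ = g ^ n * g * h * (q * q ^ n) * (r ^ n * r ^ n.choose 2) := by
          rw [mul_bra h g]; simp only [mul_assoc]; rfl
      _ = g ^ (n + 1) * h * q ^ (n + 1) * r ^ (n + 1).choose 2 := by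
          rw [← pow_succ' q, ← pow_add, ← pow_succ, Nat.choose_succ_succ n 1,
            Nat.choose_one_right]

variable {α : Type} [Fintype α] [DecidableEq α] (φ : α → G)

/-- Moving a commutator to the right of a product. -/
lemma bra_prod (hG : ClassLE3 G) (h g : G) : ∀ (v : List α) (n : ℕ),
    (bra h g) ^ n * (v.map φ).prod
      = (v.map φ).prod * (bra h g) ^ n * ((v.map fun b => bra (bra h g) (φ b)).prod) ^ n
  | [], n => by simp
  | b :: v, n => by
    set q := bra h g
    set s := bra q (φ b)
    set P := (v.map fun b => bra q (φ b)).prod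
    have hs : ∀ d, Commute s d := fun d => (comm_three hG h g (φ b) d).symm
    have hq : ∀ k : ℕ, q ^ k * φ b = φ b * q ^ k * s ^ k := by
      intro k
      induction k with
      | zero => simp
      | succ k ih =>
        calc q ^ (k + 1) * φ b = q ^ k * (q * φ b) := by rw [pow_succ, mul_assoc]
          _ = q ^ k * φ b * q * s := by rw [mul_bra q (φ b)]; simp only [mul_assoc]; rfl
          _ = φ b * q ^ k * (s ^ k * q) * s := by rw [ih]; simp only [mul_assoc]
          _ = φ b * q ^ (k + 1) * s ^ (k + 1) := by
            rw [((hs q).pow_left k).eq]; simp only [pow_succ, mul_assoc]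
    simp only [List.map_cons, List.prod_cons]
    calc q ^ n * (φ b * (v.map φ).prod)
        = φ b * q ^ n * (s ^ n * (v.map φ).prod) := by rw [← mul_assoc, hq n]; simp only [mul_assoc]
      _ = φ b * (q ^ n * (v.map φ).prod) * s ^ n := by
          rw [((hs _).pow_left n).eq]; simp only [mul_assoc]
      _ = φ b * (v.map φ).prod * q ^ n * (P ^ n * s ^ n) := by
          rw [bra_prod hG h g v n]; simp only [mul_assoc]; rfl
      _ = φ b * (v.map φ).prod * q ^ n * (s * P) ^ n := by
          rw [(hs P).mul_pow, ((hs _).pow_left n).eq]

variable [Finite G]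

/-- The product is a function of the counts of subwords of length at most three. -/
theorem prod_eq_of_sub (hG : ClassLE3 G) {w w' : List α}
    (h : ∀ u : List α, u.length ≤ 3 → sub u w ≡ sub u w' [MOD Nat.card G]) :
    (w.map φ).prod = (w'.map φ).prod := by
  classical
  let T : Set G := {x | ∃ a b, x = bra a b}
  let K : Subgroup G := Subgroup.closure T
  let _ : CommGroup K := Subgroup.closureCommGroupOfComm fun x hx y hy => by
    obtain ⟨a, b, rfl⟩ := hx
    obtain ⟨c, d, rfl⟩ := hy
    exact commute_bra hG a b c d
  let br : G → G → K := fun a b => ⟨bra a b, Subgroup.subset_closure ⟨a, b, rfl⟩⟩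
  have hmod : ∀ (x : K) (m n : ℕ), m ≡ n [MOD Nat.card G] → x ^ m = x ^ n := by
    intro x m n hmn
    apply Subtype.ext
    rw [Subgroup.coe_pow, Subgroup.coe_pow, pow_eq_pow_iff_modEq]
    exact hmn.of_dvd (orderOf_dvd_natCard _)
  -- the formula for one letter
  have formula : ∀ (l : α) (v : List α), (v.map φ).prod = φ l ^ sub [l] v *
      ((v.filter fun x => decide (x ≠ l)).map φ).prod *
      (((∏ a, (if a = l then 1 else br (φ a) (φ l)) ^ sub [a, l] v) *
        (∏ a, (if a = l then 1 else br (bra (φ a) (φ l)) (φ l)) ^ sub [a, l, l] v) *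
        (∏ a, ∏ b, (if a = l ∨ b = l then 1 else br (bra (φ a) (φ l)) (φ b)) ^
          (sub [a, l, b] v + sub [a, b, l] v)) : K) : G) := by
    intro l v
    induction v with
    | nil => simp
    | cons a v ih =>
      rw [List.map_cons, List.prod_cons, ih]
      by_cases hal : a = l
      · subst hal
        have key : ∀ (c : α) (x : K) (u : List α),
            (if c = a then 1 else x) ^ sub (c :: u) (a :: v)
              = (if c = a then 1 else x) ^ sub (c :: u) v := by
          intro c x u
          by_cases hc : c = a
          · simp [hc]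
          · simp [sub_cons, Ne.symm hc]
        have key2 : ∀ c b : α, (if c = a ∨ b = a then 1 else br (bra (φ c) (φ a)) (φ b)) ^
            (sub [c, a, b] (a :: v) + sub [c, b, a] (a :: v))
            = (if c = a ∨ b = a then 1 else br (bra (φ c) (φ a)) (φ b)) ^
            (sub [c, a, b] v + sub [c, b, a] v) := by
          intro c b
          by_cases hc : c = a
          · simp [hc]
          · simp [sub_cons, Ne.symm hc]
        simp only [key, key2]
        rw [List.filter_cons_of_neg (by simp), sub_cons, if_pos rfl, sub_nil, add_comm 1, pow_succ']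
        simp only [mul_assoc]
      · rw [List.filter_cons_of_pos (by simpa using hal), List.map_cons, List.prod_cons,
          show sub [l] (a :: v) = sub [l] v by simp [sub_cons, hal]]
        set C := sub [l] v with hC
        set v' := v.filter fun x => decide (x ≠ l)
        have hS : ((v'.map fun b => bra (bra (φ a) (φ l)) (φ b)).prod) ^ C
            = ((∏ b, (if b = l then 1 else br (bra (φ a) (φ l)) (φ b)) ^
              (C * sub [b] v) : K) : G) := by
          have e : (v'.map fun b => bra (bra (φ a) (φ l)) (φ b)).prod
              = ((∏ b, (if b = l then 1 else br (bra (φ a) (φ l)) (φ b)) ^ sub [b] v : K) : G) := by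
            have e' : ∀ u : List α,
                ((u.filter fun x => decide (x ≠ l)).map fun b => br (bra (φ a) (φ l)) (φ b)).prod
                = ∏ b, (if b = l then 1 else br (bra (φ a) (φ l)) (φ b)) ^ sub [b] u := by
              intro u
              induction u with
              | nil => simp
              | cons x v ih =>
                simp only [sub_cons, sub_nil, pow_add, prod_mul_distrib, pow_ite, pow_one,
                  pow_zero, prod_ite_eq, mem_univ, if_true, ← ih]
                by_cases hx : x = l
                · simp [hx]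
                · simp [hx]
            rw [← e' v, SubmonoidClass.coe_list_prod, List.map_map]
            rfl
          rw [e, ← Subgroup.coe_pow, ← prod_pow]
          congr 2 with b
          rw [← pow_mul, mul_comm]
        have hr : Commute ((bra (bra (φ a) (φ l)) (φ l)) ^ C.choose 2) ((v'.map φ).prod) :=
          (show Commute _ _ from (comm_three hG (φ a) (φ l) (φ l) _).symm).pow_left _
        have step : φ a * (φ l ^ C * (v'.map φ).prod) = φ l ^ C * (φ a * (v'.map φ).prod) *
            ((br (φ a) (φ l) ^ C * br (bra (φ a) (φ l)) (φ l) ^ C.choose 2 *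
              ∏ b, (if b = l then 1 else br (bra (φ a) (φ l)) (φ b)) ^ (C * sub [b] v) : K) : G) := by
          rw [← mul_assoc, mul_pow_left hG, mul_assoc _ _ ((v'.map φ).prod), hr.eq,
            ← mul_assoc, mul_assoc _ ((bra (φ a) (φ l)) ^ C), bra_prod φ hG, hS]
          simp only [Subgroup.coe_mul, Subgroup.coe_pow, br, mul_assoc]
          have hc : Commute ((bra (bra (φ a) (φ l)) (φ l)) ^ C.choose 2)
              ((∏ b, (if b = l then 1 else br (bra (φ a) (φ l)) (φ b)) ^ (C * sub [b] v) : K) : G) :=
            (show Commute _ _ from (comm_three hG (φ a) (φ l) (φ l) _).symm).pow_left _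
          rw [hc.eq]
        rw [← mul_assoc, step, mul_assoc, ← Subgroup.coe_mul]
        congr 2
        have h1 : ∀ c, sub [c, l] (a :: v) = (if a = c then C else 0) + sub [c, l] v := fun c => rfl
        have h2 : ∀ c, sub [c, l, l] (a :: v) = (if a = c then C.choose 2 else 0) + sub [c, l, l] v :=
          fun c => by rw [sub_cons, hC, choose_two_eq]
        have h3 : ∀ c b, (if c = l ∨ b = l then 1 else br (bra (φ c) (φ l)) (φ b)) ^
            (sub [c, l, b] (a :: v) + sub [c, b, l] (a :: v)) =
            (if a = c then (if b = l then 1 else br (bra (φ a) (φ l)) (φ b)) ^ (C * sub [b] v) else 1)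
            * (if c = l ∨ b = l then 1 else br (bra (φ c) (φ l)) (φ b)) ^
            (sub [c, l, b] v + sub [c, b, l] v) := by
          intro c b
          by_cases hac : a = c
          · subst hac
            by_cases hb : b = l
            · simp [hb]
            · simp only [hal, hb, false_or, if_false, if_true, sub_cons (u := [l, b]),
                sub_cons (u := [b, l]), hC, shuffle_two (Ne.symm hb), ← pow_add]
              congr 1
              ring
          · simp [sub_cons, hac]
        simp only [h1, h2, h3, pow_add, prod_mul_distrib, pow_ite, pow_zero, prod_ite_eq, mem_univ,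
          if_true]
        rw [prod_comm (f := fun c b => if a = c then
          (if b = l then 1 else br (bra (φ a) (φ l)) (φ b)) ^ (C * sub [b] v) else 1)]
        simp only [prod_ite_eq, mem_univ, if_true, if_neg hal]
        ac_rfl
  suffices ∀ S : Finset α, ((w.filter fun x => decide (x ∈ S)).map φ).prod
      = ((w'.filter fun x => decide (x ∈ S)).map φ).prod by
    simpa using this univ
  intro S
  induction S using Finset.induction_on with
  | empty => simp
  | @insert l S hl ih =>
    set P := fun x => decide (x ∈ insert l S) with hP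
    have hv : ∀ z : List α, (z.filter P).filter (fun x => decide (x ≠ l))
        = z.filter fun x => decide (x ∈ S) := by
      intro z
      rw [List.filter_filter]
      refine List.filter_congr fun x _ => ?_
      by_cases hx : x = l
      · simp [hx, hl]
      · simp [hP, hx]
    have hs : ∀ u : List α, u.length ≤ 3 →
        sub u (w.filter P) ≡ sub u (w'.filter P) [MOD Nat.card G] := by
      intro u hu
      rw [sub_filter, sub_filter]
      split
      · exact h u hu
      · rfl
    rw [formula l (w.filter P), formula l (w'.filter P), hv, hv, ih]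
    have hC : φ l ^ sub [l] (w.filter P) = φ l ^ sub [l] (w'.filter P) :=
      pow_eq_pow_iff_modEq.2 ((hs [l] (by simp)).of_dvd (orderOf_dvd_natCard _))
    rw [hC]
    congr 2
    congr 1
    · congr 1
      · exact prod_congr rfl fun a _ => hmod _ _ _ (hs _ (by simp))
      · exact prod_congr rfl fun a _ => hmod _ _ _ (hs _ (by simp))
    · exact prod_congr rfl fun a _ => prod_congr rfl fun b _ =>
        hmod _ _ _ ((hs _ (by simp)).add (hs _ (by simp)))

/-- The value of a word in a group of class three. -/
theorem det_prod_class3 (hG : ClassLE3 G) : Det fun w : List α => (w.map φ).prod := by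
  classical
  let ι := Σ k : Fin 4, (Fin k → α)
  let cnt : List α → ι → ZMod (Nat.card G) :=
    fun w i => ((sub (List.ofFn i.2) w : ℤ) : ZMod (Nat.card G))
  have hM : 0 < Nat.card G := Nat.card_pos
  have : NeZero (Nat.card G) := ⟨hM.ne'⟩
  have hlen : ∀ i : ι, (List.ofFn i.2).length ≤ 3 := fun i => by
    rw [List.length_ofFn]; have := i.1.2; omega
  have h : Det cnt := Det.pi fun i : ι => detI_sub _ (hlen i) (Nat.card G) hM
  have := h.comp fun v => if hv : ∃ w, cnt w = v then (hv.choose.map φ).prod else 1
  intro g
  refine (this g).of_iff fun w => ?_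
  have hv : ∃ z, cnt z = cnt w := ⟨w, rfl⟩
  have key : ∀ z, cnt z = cnt w → (z.map φ).prod = (w.map φ).prod := by
    intro z hz
    refine prod_eq_of_sub φ hG fun u hu => ?_
    have := congrFun hz ⟨⟨u.length, by omega⟩, fun i => u.get i⟩
    simp only [cnt, List.ofFn_get, Int.cast_natCast] at this
    exact (ZMod.natCast_eq_natCast_iff _ _ _).1 this
  have e : (hv.choose.map φ).prod = (w.map φ).prod := key _ hv.choose_spec
  simp only [mem_mk, dif_pos hv, e]

end Vale.Agent.P329
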