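import Vale.Agent.P329.Class3.Visits

/-! P329: the numbers of occurrences of subwords of length at most three. -/

namespace Vale.Agent.P329

variable {α : Type} [DecidableEq α]

/-- The number of occurrences of a word as a scattered subword. -/
def sub : List α → List α → ℕ
  | [], _ => 1
  | _ :: _, [] => 0
  | x :: u, a :: w => (if a = x then sub u w else 0) + sub (x :: u) w

@[simp] lemma sub_nil (w : List α) : sub [] w = 1 := by cases w <;> rfl

@[simp] lemma sub_cons_nil (x : α) (u : List α) : sub (x :: u) [] = 0 := rfl

lemma sub_cons (x a : α) (u w : List α) :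
    sub (x :: u) (a :: w) = (if a = x then sub u w else 0) + sub (x :: u) w := rfl

lemma wt_zero (x : α) : ∀ (w : List α) (i : ℕ),
    wt (fun _ => false) x 0 i w = (sub [x] w : ℤ)
  | [], i => by simp [wt]
  | a :: w, i => by
    simp only [wt, wt_zero x w, sub_cons, sub_nil]
    split_ifs <;> push_cast <;> simp_all

lemma wt_single {x y : α} (hxy : x ≠ y) (k : ℕ) (hk : k = 1 ∨ k = 2) : ∀ (w : List α) (i : ℕ),
    wt (fun a => decide (a = x)) y k i w = (i : ℤ) ^ k * sub [y] w
      + (if k = 1 then (sub [x, y] w : ℤ)
        else (2 * i + 1) * sub [x, y] w + 2 * sub [x, x, y] w)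
  | [], i => by simp [wt]
  | a :: w, i => by
    simp only [wt, wt_single hxy k hk w, sub_cons, sub_nil]
    rcases hk with rfl | rfl <;> by_cases h1 : a = x <;> by_cases h2 : a = y <;>
      simp_all <;> ring

lemma wt_pair {x y z : α} (hxy : x ≠ y) (hxz : x ≠ z) (hyz : y ≠ z) : ∀ (w : List α) (i : ℕ),
    wt (fun a => decide (a = x) || decide (a = y)) z 2 i w = (i : ℤ) ^ 2 * sub [z] w
      + (2 * i + 1) * (sub [x, z] w + sub [y, z] w)
      + 2 * (sub [x, x, z] w + sub [y, y, z] w + sub [x, y, z] w + sub [y, x, z] w)
  | [], i => by simp [wt]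
  | a :: w, i => by
    simp only [wt, wt_pair hxy hxz hyz w, sub_cons, sub_nil]
    by_cases h1 : a = x <;> by_cases h2 : a = y <;> by_cases h3 : a = z <;>
      simp_all <;> ring

lemma shuffle_same (x : α) : ∀ w, sub [x] w * sub [x] w = 2 * sub [x, x] w + sub [x] w
  | [] => rfl
  | a :: w => by
    have := shuffle_same x w
    simp only [sub_cons, sub_nil]
    by_cases h : a = x <;> simp [h] <;> nlinarith

lemma shuffle_two {x y : α} (h : x ≠ y) : ∀ w,
    sub [x] w * sub [y] w = sub [x, y] w + sub [y, x] w
  | [] => rfl
  | a :: w => by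
    have := shuffle_two h w
    simp only [sub_cons, sub_nil]
    by_cases h1 : a = x <;> by_cases h2 : a = y <;> simp_all <;> nlinarith

lemma choose_two_eq (x : α) : ∀ w, (sub [x] w).choose 2 = sub [x, x] w
  | [] => rfl
  | a :: w => by
    simp only [sub_cons, sub_nil]
    split_ifs
    · rw [Nat.add_comm 1, Nat.choose_succ_succ, Nat.choose_one_right, choose_two_eq x w]
    · rw [zero_add, zero_add, choose_two_eq x w]

lemma shuffle_same_three (x : α) : ∀ w,
    sub [x] w * sub [x, x] w = 3 * sub [x, x, x] w + 2 * sub [x, x] w
  | [] => rfl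
  | a :: w => by
    have := shuffle_same_three x w
    have := shuffle_same x w
    simp only [sub_cons, sub_nil]
    by_cases h : a = x <;> simp [h] <;> nlinarith

lemma shuffle_front {x y : α} (h : x ≠ y) : ∀ w,
    sub [x] w * sub [x, y] w = 2 * sub [x, x, y] w + sub [x, y, x] w + sub [x, y] w
  | [] => rfl
  | a :: w => by
    have := shuffle_front h w
    have := shuffle_two h w
    simp only [sub_cons, sub_nil]
    by_cases h1 : a = x <;> by_cases h2 : a = y <;> simp_all <;> nlinarith

lemma shuffle_back {x y : α} (h : x ≠ y) : ∀ w,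
    sub [x] w * sub [y, x] w = 2 * sub [y, x, x] w + sub [x, y, x] w + sub [y, x] w
  | [] => rfl
  | a :: w => by
    have := shuffle_back h w
    have := shuffle_same x w
    simp only [sub_cons, sub_nil]
    by_cases h1 : a = x <;> by_cases h2 : a = y <;> simp_all <;> nlinarith

lemma shuffle_three {x y z : α} (hxy : x ≠ y) (hxz : x ≠ z) (hyz : y ≠ z) : ∀ w,
    sub [z] w * sub [x, y] w = sub [z, x, y] w + sub [x, z, y] w + sub [x, y, z] w
  | [] => rfl
  | a :: w => by
    have := shuffle_three hxy hxz hyz w
    have := shuffle_two hyz w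
    simp only [sub_cons, sub_nil]
    by_cases h1 : a = x <;> by_cases h2 : a = y <;> by_cases h3 : a = z <;> simp_all <;> nlinarith

lemma detI_mul {F G : List α → ℤ} (h : DetI F) (h' : DetI G) : DetI fun w => F w * G w := by
  intro M hM
  have : NeZero M := ⟨hM.ne'⟩
  have := ((h M hM).prod (h' M hM)).comp fun p => p.1 * p.2
  simpa [Int.cast_mul] using this

variable [Fintype α]

lemma detI_one (x : α) : DetI fun w => (sub [x] w : ℤ) :=
  (detI_wt (A := fun _ => false) (c := x) rfl 0).congr fun w => wt_zero x w 0

lemma detI_two (x y : α) : DetI fun w => (sub [x, y] w : ℤ) := by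
  rcases eq_or_ne x y with rfl | h
  · refine DetI.of_mul (c := 2) two_ne_zero
      (((detI_mul (detI_one x) (detI_one x)).sub (detI_one x)).congr fun w => ?_)
    have := shuffle_same x w
    have e : (sub [x] w : ℤ) * sub [x] w = 2 * sub [x, x] w + sub [x] w := by exact_mod_cast this
    linarith
  · refine (detI_wt (A := fun a => decide (a = x)) (c := y) (by simp [h.symm]) 1).congr fun w => ?_
    rw [wt_single h 1 (Or.inl rfl)]
    simp

lemma detI_front {x y : α} (h : x ≠ y) : DetI fun w => (sub [x, x, y] w : ℤ) := by
  refine DetI.of_mul (c := 2) two_ne_zero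
    (((detI_wt (A := fun a => decide (a = x)) (c := y) (by simp [h.symm]) 2).sub
      (detI_two x y)).congr fun w => ?_)
  rw [wt_single h 2 (Or.inr rfl)]
  simp

/-- Every subword of length three is counted at star height one. -/
theorem detI_three (x y z : α) : DetI fun w => (sub [x, y, z] w : ℤ) := by
  have mid : ∀ {a b : α}, a ≠ b → DetI fun w => (sub [a, b, a] w : ℤ) := fun {a b} h =>
    (((detI_mul (detI_one a) (detI_two a b)).sub ((detI_front h).smul 2)).sub
      (detI_two a b)).congr fun w => by
        have e : (sub [a] w : ℤ) * sub [a, b] w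
            = 2 * sub [a, a, b] w + sub [a, b, a] w + sub [a, b] w := by
          exact_mod_cast shuffle_front h w
        linarith
  rcases eq_or_ne x y with rfl | hxy
  · rcases eq_or_ne x z with rfl | hxz
    · refine DetI.of_mul (c := 3) three_ne_zero (((detI_mul (detI_one x) (detI_two x x)).sub
        ((detI_two x x).smul 2)).congr fun w => ?_)
      have e : (sub [x] w : ℤ) * sub [x, x] w = 3 * sub [x, x, x] w + 2 * sub [x, x] w := by
        exact_mod_cast shuffle_same_three x w
      linarith
    · exact detI_front hxz
  rcases eq_or_ne x z with rfl | hxz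
  · exact mid hxy
  rcases eq_or_ne y z with rfl | hyz
  · refine DetI.of_mul (c := 2) two_ne_zero (((detI_mul (detI_one y) (detI_two x y)).sub
      (mid (Ne.symm hxy))).sub (detI_two x y) |>.congr fun w => ?_)
    have e : (sub [y] w : ℤ) * sub [x, y] w
        = 2 * sub [x, y, y] w + sub [y, x, y] w + sub [x, y] w := by
      exact_mod_cast shuffle_back (Ne.symm hxy) w
    linarith
  have hW : DetI fun w => (sub [x, z, y] w + sub [z, x, y] w : ℤ) := by
    refine DetI.of_mul (c := 2) two_ne_zero
      (((((detI_wt (A := fun a => decide (a = x) || decide (a = z)) (c := y)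
        (by simp [hxy.symm, hyz]) 2).sub (detI_two x y)).sub (detI_two z y)).sub
          ((detI_front hxy).smul 2)).sub ((detI_front hyz.symm).smul 2) |>.congr fun w => ?_)
    rw [wt_pair hxz hxy hyz.symm]
    push_cast
    ring
  refine ((detI_mul (detI_one z) (detI_two x y)).sub hW).congr fun w => ?_
  have e : (sub [z] w : ℤ) * sub [x, y] w
      = sub [z, x, y] w + sub [x, z, y] w + sub [x, y, z] w := by
    exact_mod_cast shuffle_three hxy hxz hyz w
  linarith

/-- Every subword of length at most three is counted at star height one. -/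
theorem detI_sub : ∀ u : List α, u.length ≤ 3 → DetI fun w => (sub u w : ℤ)
  | [], _ => (DetI.const 1).congr fun w => by simp
  | [x], _ => detI_one x
  | [x, y], _ => detI_two x y
  | [x, y, z], _ => detI_three x y z
  | _ :: _ :: _ :: _ :: _, h => by simp only [List.length_cons] at h; omega

lemma sub_filter (P : α → Bool) : ∀ (w u : List α),
    sub u (w.filter P) = if u.all P then sub u w else 0
  | [], [] => by simp
  | [], x :: u => by simp
  | a :: w, [] => by simp
  | a :: w, x :: u => by
    have h1 := sub_filter P w (x :: u)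
    have h2 := sub_filter P w u
    simp only [List.all_cons] at h1 ⊢
    cases ha : P a
    · rw [List.filter_cons_of_neg (by simp [ha]), h1, sub_cons]
      by_cases hax : a = x
      · subst hax; simp [ha]
      · simp [hax]
    · rw [List.filter_cons_of_pos (by simp [ha]), sub_cons, h1, h2, sub_cons]
      by_cases hax : a = x
      · subst hax; simp [ha]; split_ifs <;> simp
      · simp [hax]

end Vale.Agent.P329
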