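import Vale.Agent.P329.Count

/-! P329: visits of a letter to a counter of other letters modulo any positive integer. -/

namespace Vale.Agent.P329

open Finset
open scoped Computability

variable {α : Type} [DecidableEq α]

/-- Occurrences of `c` when the counter of the letters in `A`, started at `i`, is divisible by `m`. -/
def vis (A : α → Bool) (c : α) (m : ℕ) : ℕ → List α → ℤ
  | _, [] => 0
  | i, a :: w => (if a = c ∧ i % m = 0 then 1 else 0) + vis A c m (if A a then i + 1 else i) w

/-- Rounds of the counter, with the letters outside `A` and `sk` read at a multiple of `m`. -/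
def rnd (A sk : α → Bool) (m : ℕ) : ℕ → List α → ℤ
  | _, [] => 0
  | i, a :: w =>
    (if A a then (if (i + 1) % m = 0 then 1 else 0) else if i % m = 0 ∧ sk a = false then 1 else 0)
      + rnd A sk m (if A a then i + 1 else i) w

/-- The sum of `i ^ k` over the occurrences of `c`, with the counter `i`. -/
def wt (A : α → Bool) (c : α) (k : ℕ) : ℕ → List α → ℤ
  | _, [] => 0
  | i, a :: w => (if a = c then (i : ℤ) ^ k else 0) + wt A c k (if A a then i + 1 else i) w

/-- Words up to their first letter in `A`. -/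
def Seg (A : α → Bool) : Language α :=
  mk fun w => ∃ u a, (∀ x ∈ u, A x = false) ∧ A a = true ∧ w = u ++ [a]

variable {A sk : α → Bool} {c : α} {m : ℕ}

lemma next_mod {i j : ℕ} (a : α) (h : i % m = j % m) :
    (if A a then i + 1 else i) % m = (if A a then j + 1 else j) % m := by
  split
  · rw [Nat.add_mod, h, ← Nat.add_mod]
  · exact h

lemma vis_congr : ∀ (w : List α) (i j : ℕ), i % m = j % m → vis A c m i w = vis A c m j w
  | [], _, _, _ => rfl
  | a :: w, i, j, h => by rw [vis, vis, vis_congr w _ _ (next_mod a h), h]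

lemma rnd_congr : ∀ (w : List α) (i j : ℕ), i % m = j % m → rnd A sk m i w = rnd A sk m j w
  | [], _, _, _ => rfl
  | a :: w, i, j, h => by
    have h1 : (i + 1) % m = (j + 1) % m := by rw [Nat.add_mod, h, ← Nat.add_mod]
    rw [rnd, rnd, rnd_congr w _ _ (next_mod a h), h, h1]

lemma seg_step : ∀ (u : List α) (i : ℕ) (t : List α), (∀ x ∈ u, A x = false) → i % m ≠ 0 →
    vis A c m i (u ++ t) = vis A c m i t ∧ rnd A sk m i (u ++ t) = rnd A sk m i t
  | [], _, _, _, _ => ⟨rfl, rfl⟩
  | a :: u, i, t, hu, hi => by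
    obtain ⟨h1, h2⟩ := seg_step u i t (fun x hx => hu x (List.mem_cons_of_mem _ hx)) hi
    simp [vis, rnd, hu a List.mem_cons_self, hi, h1, h2]

lemma pow_step : ∀ (j i : ℕ) (x t : List α), x ∈ (Seg A) ^ j → (∀ k < j, (i + k) % m ≠ 0) →
    vis A c m i (x ++ t) = vis A c m (i + j) t ∧
      rnd A sk m i (x ++ t) = (if 0 < j ∧ (i + j) % m = 0 then 1 else 0) + rnd A sk m (i + j) t
  | 0, i, x, t, hx, _ => by
    rw [pow_zero, Language.mem_one] at hx
    simp [hx]
  | j + 1, i, x, t, hx, hi => by
    rw [pow_succ', Language.mem_mul] at hx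
    obtain ⟨_, ⟨u, a, hu, ha, rfl⟩, v, hv, rfl⟩ := hx
    have hi0 : i % m ≠ 0 := hi 0 (Nat.succ_pos j)
    obtain ⟨h1, h2⟩ := seg_step (A := A) (sk := sk) (c := c) u i (a :: (v ++ t)) hu hi0
    have hk : ∀ k < j, (i + 1 + k) % m ≠ 0 := fun k hk => by
      have := hi (k + 1) (by omega)
      rwa [show i + 1 + k = i + (k + 1) by omega]
    obtain ⟨h3, h4⟩ := pow_step j (i + 1) v t hv hk
    rw [show i + 1 + j = i + (j + 1) by omega] at h3 h4
    have e : u ++ [a] ++ v ++ t = u ++ (a :: (v ++ t)) := by simp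
    rw [e, h1, h2]
    simp only [vis, rnd, ha, if_true, h3, h4, hi0, and_false, if_false, zero_add, Nat.succ_pos,
      true_and]
    rcases Nat.eq_zero_or_pos j with rfl | hj
    · simp
    · have : (i + 1) % m ≠ 0 := hi 1 (by omega)
      simp [hj, this]

/-- Either the counter makes `j` steps, or nothing is counted. -/
lemma pow_or_zero : ∀ (t : List α) (i j : ℕ), (∀ k < j, (i + k) % m ≠ 0) →
    (∃ x r, x ∈ (Seg A) ^ j ∧ t = x ++ r) ∨ (vis A c m i t = 0 ∧ rnd A sk m i t = 0)
  | t, i, 0, _ => Or.inl ⟨[], t, by simp [Language.mem_one], rfl⟩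
  | [], i, j + 1, _ => Or.inr ⟨rfl, rfl⟩
  | a :: t, i, j + 1, hi => by
    have hi0 : i % m ≠ 0 := hi 0 (Nat.succ_pos j)
    cases ha : A a
    · rcases pow_or_zero t i (j + 1) hi with ⟨x, r, hx, rfl⟩ | ⟨h1, h2⟩
      · rw [pow_succ', Language.mem_mul] at hx
        obtain ⟨_, ⟨u, b, hu, hb, rfl⟩, v, hv, rfl⟩ := hx
        refine Or.inl ⟨(a :: u ++ [b]) ++ v, r, ?_, by simp⟩
        rw [pow_succ']
        refine Language.append_mem_mul ⟨a :: u, b, ?_, hb, rfl⟩ hv
        simp only [List.mem_cons, forall_eq_or_imp]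
        exact ⟨ha, hu⟩
      · exact Or.inr (by simp [vis, rnd, ha, hi0, h1, h2])
    · have hk : ∀ k < j, (i + 1 + k) % m ≠ 0 := fun k hk => by
        have := hi (k + 1) (by omega)
        rwa [show i + 1 + k = i + (k + 1) by omega]
      rcases pow_or_zero t (i + 1) j hk with ⟨x, r, hx, rfl⟩ | ⟨h1, h2⟩
      · refine Or.inl ⟨[a] ++ x, r, ?_, by simp⟩
        rw [pow_succ']
        exact Language.append_mem_mul ⟨[], a, by simp, ha, rfl⟩ hx
      · rcases Nat.eq_zero_or_pos j with rfl | hj
        · refine Or.inl ⟨[a], t, ?_, rfl⟩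
          rw [pow_one]
          exact ⟨[], a, by simp, ha, rfl⟩
        · have : (i + 1) % m ≠ 0 := hi 1 (by omega)
          exact Or.inr (by simp [vis, rnd, ha, hi0, h1, h2, this])

variable [Fintype α]

lemma has_seg : Has 0 (Seg A) := by
  refine ((has_all fun x => A x = false).concat'
    (Has.iUnion' (P := fun a w => A a = true ∧ w = [a]) fun a =>
      (Has.const' _).inter' (Has.single' a))).of_iff fun w => ?_
  simp only [Seg, mem_mk]
  constructor
  · rintro ⟨u, v, hu, ⟨a, ha, rfl⟩, rfl⟩; exact ⟨u, a, hu, ha, rfl⟩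
  · rintro ⟨u, a, hu, ha, rfl⟩; exact ⟨u, [a], hu, ⟨a, ha, rfl⟩, rfl⟩

/-- One block of the counting code. -/
def Blk (A sk : α → Bool) (m : ℕ) : Language α :=
  mk fun w => ∃ u v, (∀ x ∈ u, sk x = true) ∧
    ((∃ a, (A a = false ∧ sk a = false) ∧ v = [a]) ∨
      ∃ y z, (∃ a, A a = true ∧ y = [a]) ∧ z ∈ (Seg A) ^ (m - 1) ∧ v = y ++ z) ∧
    w = u ++ v

omit [Fintype α] in
lemma rnd_skip (hs : ∀ x, sk x = true → A x = false) : ∀ (u t : List α),
    (∀ x ∈ u, sk x = true) → rnd A sk m 0 (u ++ t) = rnd A sk m 0 t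
  | [], _, _ => rfl
  | a :: u, t, h => by
    have ha := h a List.mem_cons_self
    simp [rnd, hs a ha, ha, rnd_skip hs u t fun x hx => h x (List.mem_cons_of_mem _ hx)]

lemma detI_rnd (hm : 0 < m) (hs : ∀ x, sk x = true → A x = false) : DetI (rnd A sk m 0) := by
  have hB : Has 0 (Blk A sk m) :=
    (has_all fun x => sk x = true).concat'
      ((Has.iUnion' fun a => (Has.const' (A a = false ∧ sk a = false)).inter' (Has.single' a)).or'
        ((Has.iUnion' fun a => (Has.const' (A a = true)).inter' (Has.single' a)).concat'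
          ((has_seg.pow (m - 1)).of_iff (M := mk fun z => z ∈ (Seg A) ^ (m - 1)) fun _ => Iff.rfl)))
  have hkk : ∀ k < m - 1, (1 + k) % m ≠ 0 := fun k hk => by
    rw [Nat.mod_eq_of_lt (by omega)]; omega
  refine detI_count hB ?_ ?_ ?_
  · rintro ⟨u, v, -, hv, e⟩
    have hv0 : v = [] := by
      have := e.symm
      simp at this
      exact this.2
    rcases hv with ⟨a, -, rfl⟩ | ⟨y, z, ⟨a, -, rfl⟩, -, rfl⟩ <;> simp at hv0
  · rintro b ⟨u, v, hu, hv, rfl⟩ t
    rw [List.append_assoc, rnd_skip hs u _ hu]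
    rcases hv with ⟨a, ⟨ha, hk⟩, rfl⟩ | ⟨y, z, ⟨a, ha, rfl⟩, hz, rfl⟩
    · simp [rnd, ha, hk]
    · have h := (pow_step (A := A) (sk := sk) (c := a) (m - 1) 1 z t hz hkk).2
      have e1 : 1 + (m - 1) = m := by omega
      rw [e1, Nat.mod_self, rnd_congr t m 0 (by simp)] at h
      simp only [List.cons_append, List.nil_append, rnd, ha, if_true, zero_add]
      rw [h]
      rcases Nat.eq_zero_or_pos (m - 1) with h0 | h0
      · have : m = 1 := by omega
        simp [this]
      · have : 1 % m ≠ 0 := by rw [Nat.mod_eq_of_lt (by omega)]; omega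
        simp [h0, this]
  · intro t
    induction t with
    | nil => intro _; rfl
    | cons a t ih =>
      intro ht
      cases ha : A a
      · cases hk : sk a
        · exact absurd ⟨[a], t, ⟨[], [a], by simp, Or.inl ⟨a, ⟨ha, hk⟩, rfl⟩, rfl⟩, rfl⟩ ht
        · simp only [rnd, ha, hk]
          simp only [Bool.false_eq_true, if_false, and_false, Bool.true_eq_false, zero_add]
          refine ih ?_
          rintro ⟨b, r, ⟨u, v, hu, hv, rfl⟩, rfl⟩
          refine ht ⟨a :: u ++ v, r, ⟨a :: u, v, ?_, hv, rfl⟩, by simp⟩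
          simp only [List.mem_cons, forall_eq_or_imp]
          exact ⟨hk, hu⟩
      · rcases pow_or_zero (A := A) (sk := sk) (c := a) t 1 (m - 1) hkk with
          ⟨x, r, hx, rfl⟩ | ⟨-, h0⟩
        · exact absurd ⟨[a] ++ x, r,
            ⟨[], [a] ++ x, by simp, Or.inr ⟨[a], x, ⟨a, ha, rfl⟩, hx, rfl⟩, rfl⟩, by simp⟩ ht
        · rcases Nat.eq_zero_or_pos (m - 1) with hz | hz
          · exact absurd ⟨[a], t, ⟨[], [a], by simp,
              Or.inr ⟨[a], [], ⟨a, ha, rfl⟩, by simp [hz, Language.mem_one], rfl⟩, rfl⟩, rfl⟩ ht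
          · have : 1 % m ≠ 0 := by rw [Nat.mod_eq_of_lt (by omega)]; omega
            simp [rnd, ha, this, h0]

omit [Fintype α] in
lemma vis_eq_sub (hc : A c = false) : ∀ (w : List α) (i : ℕ),
    rnd A (fun _ => false) m i w - rnd A (fun x => decide (x = c)) m i w = vis A c m i w
  | [], _ => by simp [rnd, vis]
  | a :: w, i => by
    simp only [rnd, vis, ← vis_eq_sub hc w (if A a then i + 1 else i)]
    by_cases hac : a = c
    · subst hac; simp [hc]; ring
    · simp [hac]

lemma detI_vis (hm : 0 < m) (hc : A c = false) (i : ℕ) : DetI (vis A c m i) := by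
  have h0 : DetI (vis A c m 0) :=
    ((detI_rnd (A := A) (sk := fun _ => false) hm (by simp)).sub
      (detI_rnd (A := A) (sk := fun x => decide (x = c)) hm
        fun x hx => by simp at hx; rw [hx, hc])).congr fun w => vis_eq_sub hc w 0
  by_cases hi : i % m = 0
  · exact h0.congr fun w => vis_congr w 0 i (by rw [hi, Nat.zero_mod])
  · set j := m - i % m with hj
    have hlt := Nat.mod_lt i hm
    have hk : ∀ k < j, (i + k) % m ≠ 0 := fun k hk => by
      rw [← Nat.mod_add_mod, Nat.mod_eq_of_lt (by omega)]; omega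
    have hij : (i + j) % m = 0 % m := by
      rw [← Nat.mod_add_mod, show i % m + j = m by omega, Nat.mod_self, Nat.zero_mod]
    intro M hM u
    have hpre : Has 0 (mk fun x => x ∈ (Seg A) ^ j) :=
      (has_seg.pow j).of_iff fun _ => Iff.rfl
    refine (((hpre.mono (Nat.zero_le _)).concat' (h0 M hM u)).or'
      (((hpre.concat' Has.true').not'.mono (Nat.zero_le _)).inter'
        (Has.const' (((0 : ℤ) : ZMod M) = u)))).of_iff fun w => ?_
    simp only [mem_mk]
    have hval : ∀ x t, x ∈ (Seg A) ^ j → vis A c m i (x ++ t) = vis A c m 0 t := fun x t hx => by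
      rw [(pow_step (A := A) (sk := A) (c := c) j i x t hx hk).1]
      exact vis_congr t _ _ hij
    constructor
    · rintro (⟨x, t, hx, e, rfl⟩ | ⟨hno, e⟩)
      · rw [hval x t hx]; exact e
      · rcases pow_or_zero (A := A) (sk := A) (c := c) w i j hk with ⟨x, t, hx, e'⟩ | ⟨h, -⟩
        · exact absurd ⟨x, t, hx, trivial, e'⟩ hno
        · rw [h]; exact e
    · intro e
      by_cases hex : ∃ x t, x ∈ (Seg A) ^ j ∧ True ∧ w = x ++ t
      · obtain ⟨x, t, hx, -, rfl⟩ := hex
        exact Or.inl ⟨x, t, hx, by rw [← hval x t hx]; exact e, rfl⟩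
      · rcases pow_or_zero (A := A) (sk := A) (c := c) w i j hk with ⟨x, t, hx, e'⟩ | ⟨h, -⟩
        · exact absurd ⟨x, t, hx, trivial, e'⟩ hex
        · exact Or.inr ⟨hex, h ▸ e⟩

/-- Weighted occurrences are determined at star height one. -/
theorem detI_wt (hc : A c = false) (k : ℕ) : DetI (wt A c k 0) := by
  intro M hM
  have : NeZero M := ⟨hM.ne'⟩
  have key : ∀ (w : List α) (i : ℕ), ((wt A c k i w : ℤ) : ZMod M) =
      ((∑ j ∈ range M, (j : ℤ) ^ k * vis A c M (i + (M - j)) w : ℤ) : ZMod M) := by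
    intro w
    induction w with
    | nil => intro i; simp [wt, vis]
    | cons a w ih =>
      intro i
      have hnext : ∀ j, (if A a then i + (M - j) + 1 else i + (M - j))
          = (if A a then i + 1 else i) + (M - j) := fun j => by split <;> omega
      simp only [wt, vis, hnext, mul_add, sum_add_distrib, Int.cast_add, ← ih]
      congr 1
      by_cases hac : a = c
      · subst hac
        rw [sum_eq_single (i % M)]
        · have : (i + (M - i % M)) % M = 0 := by
            rw [← Nat.mod_add_mod, show i % M + (M - i % M) = M by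
              have := Nat.mod_lt i hM; omega, Nat.mod_self]
          simp [this, ZMod.natCast_mod]
        · intro j hj hne
          have hjM := mem_range.1 hj
          rw [if_neg, mul_zero]
          rintro ⟨-, h⟩
          rw [← Nat.mod_add_mod] at h
          have := Nat.mod_lt i hM
          obtain ⟨q, hq⟩ := Nat.dvd_of_mod_eq_zero h
          rcases q with _ | _ | q
          · omega
          · omega
          · rw [mul_add, mul_one, mul_add, mul_one] at hq; omega
        · exact fun h => absurd (mem_range.2 (Nat.mod_lt i hM)) h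
      · simp [hac]
  have h := DetI.sum (range M) (H := fun j w => (j : ℤ) ^ k * vis A c M (0 + (M - j)) w)
    fun j _ => (detI_vis hM hc _).smul _
  intro u
  exact (h M hM u).of_iff fun w => by simp only [mem_mk, key w 0]

end Vale.Agent.P329
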